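import Mathlib

namespace Vale.Agent.Lib.P302.helper26.C62

/-- The integer bin capacity. -/
def cap : ℕ := 272118000

end Vale.Agent.Lib.P302.helper26.C62
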