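import Mathlib

namespace Vale.Agent.Lib.P302.helper26.C62

/-- States 0 to 5 of layer 1. -/
def c1_0 : List (List ℕ) :=
  [[102044226, 102044225, 102044222, 102044222, 102044218, 102044028, 102044026, 102044025, 102044022, 102044022, 102044020, 102044018, 102044004, 102044003, 102043999, 102043998, 102043995, 102043982, 102043879, 93541684, 93541684, 93541684, 93540296, 91418044, 91418044, 91413880, 90893380, 90893380, 90880888, 90768460, 90768460, 90743476, 90706000, 90706000, 90674770, 90631048, 90612310, 90574834, 90356224, 90349978, 90331240, 89290240, 89288158, 89281912, 85037408, 85036714, 85034632, 68030007, 68030004, 68030002, 68029989, 68029959, 68029956, 68029950, 68029888, 68029559, 68029556],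
   [102044226, 102044225, 102044222, 102044222, 102044220, 102044218, 102044026, 102044025, 102044022, 102044022, 102044020, 102044018, 102044004, 102044003, 102043999, 102043998, 102043995, 102043982, 102043879, 93541684, 93541684, 93541684, 93540296, 91418044, 91418044, 91413880, 90893380, 90893380, 90880888, 90768460, 90768460, 90743476, 90706000, 90706000, 90674770, 90631048, 90612310, 90574834, 90356224, 90349978, 90331240, 89290240, 89288158, 89281912, 85037408, 85036714, 85034632, 68030007, 68030004, 68030002, 68029989, 68029959, 68029956, 68029950, 68029888, 68029556, 68029550],
   [102044226, 102044225, 102044222, 102044222, 102044220, 102044218, 102044028, 102044026, 102044025, 102044022, 102044022, 102044020, 102044018, 102044004, 102044003, 102043999, 102043998, 102043995, 102043982, 93541684, 93541684, 93541684, 93540296, 91418044, 91418044, 91413880, 90893380, 90893380, 90880888, 90768460, 90768460, 90743476, 90706000, 90706000, 90674770, 90631048, 90612310, 90574834, 90356224, 90349978, 90331240, 89290240, 89288158, 89281912, 85037408, 85036714, 85034632, 68030007, 68030004, 68030002, 68029989, 68029959, 68029956, 68029950, 68029559, 68029556, 68029550],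
   [102044226, 102044225, 102044222, 102044222, 102044220, 102044218, 102044028, 102044026, 102044025, 102044022, 102044022, 102044020, 102044018, 102044004, 102044003, 102043999, 102043998, 102043995, 102043982, 102043879, 93541684, 93541684, 93540296, 91418044, 91418044, 91413880, 90893380, 90893380, 90880888, 90768460, 90768460, 90743476, 90706000, 90706000, 90674770, 90631048, 90612310, 90574834, 90356224, 90349978, 90331240, 89290240, 89288158, 89281912, 85037408, 85036714, 85034632, 68030004, 68030002, 68029989, 68029959, 68029956, 68029950, 68029888, 68029559, 68029556, 68029550],
   [102044226, 102044225, 102044222, 102044222, 102044220, 102044218, 102044028, 102044026, 102044025, 102044022, 102044022, 102044020, 102044018, 102044004, 102044003, 102043999, 102043998, 102043995, 102043982, 102043879, 93541684, 93541684, 93541684, 93540296, 91418044, 91418044, 91413880, 90893380, 90893380, 90880888, 90768460, 90768460, 90743476, 90706000, 90706000, 90674770, 90631048, 90612310, 90574834, 90356224, 90349978, 90331240, 89290240, 89288158, 89281912, 85036714, 68030007, 68030004, 68030002, 68029989, 68029959, 68029956, 68029950, 68029888, 68029559, 68029556, 68029550],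
   [102044226, 102044225, 102044222, 102044222, 102044220, 102044218, 102044028, 102044026, 102044025, 102044022, 102044022, 102044020, 102044018, 102044004, 102044003, 102043999, 102043998, 102043995, 102043982, 102043879, 93541684, 93541684, 93541684, 93540296, 91418044, 91418044, 91413880, 90893380, 90893380, 90880888, 90768460, 90768460, 90743476, 90706000, 90706000, 90674770, 90631048, 90612310, 90574834, 90356224, 90349978, 90331240, 89290240, 89288158, 89281912, 85037408, 85036714, 68030004, 68030002, 68029989, 68029959, 68029956, 68029950, 68029888, 68029559, 68029556, 68029550]]

/-- Layer 1 of the search: the states reached after 1 steps. -/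
def lay1 : List (List ℕ) :=
  [c1_0].flatten

end Vale.Agent.Lib.P302.helper26.C62
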