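import Mathlib

namespace Vale.Agent.Lib.P302.helper26.C62

/-- States 0 to 0 of layer 14. -/
def c14_0 : List (List ℕ) :=
  [[91418044, 91413880, 90893380, 90893380, 90880888, 90768460, 90768460, 90743476, 90706000, 90706000, 90674770, 90631048, 90612310, 90574834, 90356224, 90349978, 90331240, 89288158]]

/-- Layer 14 of the search: the states reached after 14 steps. -/
def lay14 : List (List ℕ) :=
  [c14_0].flatten

end Vale.Agent.Lib.P302.helper26.C62
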