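import Mathlib

namespace Vale.Agent.Lib.P302.helper26.C62

/-- States 0 to 1 of layer 17. -/
def c17_0 : List (List ℕ) :=
  [[90880888, 90768460, 90743476, 90706000, 90706000, 90674770, 90631048, 90612310, 90574834],
   [90880888, 90768460, 90768460, 90743476, 90706000, 90706000, 90674770, 90612310, 90349978]]

/-- Layer 17 of the search: the states reached after 17 steps. -/
def lay17 : List (List ℕ) :=
  [c17_0].flatten

end Vale.Agent.Lib.P302.helper26.C62
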