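import Mathlib

namespace Vale.Agent.Lib.P302.helper26.C62

/-- Layer 20 of the search: the states reached after 20 steps. -/
def lay20 : List (List ℕ) := []

end Vale.Agent.Lib.P302.helper26.C62
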