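import Mathlib
import Vale.Agent.Lib.P302.helper26.Prune
import Vale.Agent.Lib.P302.helper26.C62.Base
import Vale.Agent.Lib.P302.helper26.C62.Lay4
import Vale.Agent.Lib.P302.helper26.C62.Lay5

namespace Vale.Agent.Lib.P302.helper26.C62

open Vale.Agent.Lib.P302.helper26

theorem st4_0 : stepOKp cap 200000 c4_0 lay5 = true := by decide +kernel

end Vale.Agent.Lib.P302.helper26.C62
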