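import Mathlib
import Vale.Agent.Lib.P302.helper26.Prune
import Vale.Agent.Lib.P302.helper26.C62.Base
import Vale.Agent.Lib.P302.helper26.C62.Lay0
import Vale.Agent.Lib.P302.helper26.C62.Lay1
import Vale.Agent.Lib.P302.helper26.C62.Lay2
import Vale.Agent.Lib.P302.helper26.C62.Lay3
import Vale.Agent.Lib.P302.helper26.C62.Lay4
import Vale.Agent.Lib.P302.helper26.C62.Lay5
import Vale.Agent.Lib.P302.helper26.C62.Lay6
import Vale.Agent.Lib.P302.helper26.C62.Lay7
import Vale.Agent.Lib.P302.helper26.C62.Lay8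
import Vale.Agent.Lib.P302.helper26.C62.Lay9
import Vale.Agent.Lib.P302.helper26.C62.Lay10
import Vale.Agent.Lib.P302.helper26.C62.Lay11
import Vale.Agent.Lib.P302.helper26.C62.Lay12
import Vale.Agent.Lib.P302.helper26.C62.Lay13
import Vale.Agent.Lib.P302.helper26.C62.Lay14
import Vale.Agent.Lib.P302.helper26.C62.Lay15
import Vale.Agent.Lib.P302.helper26.C62.Lay16
import Vale.Agent.Lib.P302.helper26.C62.Lay17
import Vale.Agent.Lib.P302.helper26.C62.Lay18
import Vale.Agent.Lib.P302.helper26.C62.Lay19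
import Vale.Agent.Lib.P302.helper26.C62.Lay20
import Vale.Agent.Lib.P302.helper26.C62.S0_0
import Vale.Agent.Lib.P302.helper26.C62.S1_0
import Vale.Agent.Lib.P302.helper26.C62.S2_0
import Vale.Agent.Lib.P302.helper26.C62.S3_0
import Vale.Agent.Lib.P302.helper26.C62.S4_0
import Vale.Agent.Lib.P302.helper26.C62.S4_1
import Vale.Agent.Lib.P302.helper26.C62.S5_0
import Vale.Agent.Lib.P302.helper26.C62.S6_0
import Vale.Agent.Lib.P302.helper26.C62.S6_1
import Vale.Agent.Lib.P302.helper26.C62.S7_0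
import Vale.Agent.Lib.P302.helper26.C62.S7_1
import Vale.Agent.Lib.P302.helper26.C62.S7_2
import Vale.Agent.Lib.P302.helper26.C62.S7_3
import Vale.Agent.Lib.P302.helper26.C62.S8_0
import Vale.Agent.Lib.P302.helper26.C62.S8_1
import Vale.Agent.Lib.P302.helper26.C62.S8_2
import Vale.Agent.Lib.P302.helper26.C62.S8_3
import Vale.Agent.Lib.P302.helper26.C62.S8_4
import Vale.Agent.Lib.P302.helper26.C62.S8_5
import Vale.Agent.Lib.P302.helper26.C62.S9_0
import Vale.Agent.Lib.P302.helper26.C62.S9_1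
import Vale.Agent.Lib.P302.helper26.C62.S9_2
import Vale.Agent.Lib.P302.helper26.C62.S9_3
import Vale.Agent.Lib.P302.helper26.C62.S9_4
import Vale.Agent.Lib.P302.helper26.C62.S10_0
import Vale.Agent.Lib.P302.helper26.C62.S10_1
import Vale.Agent.Lib.P302.helper26.C62.S10_2
import Vale.Agent.Lib.P302.helper26.C62.S11_0
import Vale.Agent.Lib.P302.helper26.C62.S11_1
import Vale.Agent.Lib.P302.helper26.C62.S12_0
import Vale.Agent.Lib.P302.helper26.C62.S13_0
import Vale.Agent.Lib.P302.helper26.C62.S14_0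
import Vale.Agent.Lib.P302.helper26.C62.S15_0
import Vale.Agent.Lib.P302.helper26.C62.S16_0
import Vale.Agent.Lib.P302.helper26.C62.S17_0
import Vale.Agent.Lib.P302.helper26.C62.S18_0

namespace Vale.Agent.Lib.P302.helper26.C62

open Vale.Agent.Lib.P302.helper14 Vale.Agent.Lib.P302.helper26

theorem no20 : ∀ s ∈ lay20, ¬ TriPart cap (s : Multiset ℕ) := by
  intro s hs
  simp [lay20] at hs

theorem no19 : ∀ s ∈ lay19, ¬ TriPart cap (s : Multiset ℕ) := by
  intro s hs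
  simp [lay19] at hs

theorem no18 : ∀ s ∈ lay18, ¬ TriPart cap (s : Multiset ℕ) :=
  flatten_no (List.forall_mem_cons.mpr ⟨stepOKp_sound st18_0 no19,
    fun _ h => absurd h List.not_mem_nil⟩)

theorem no17 : ∀ s ∈ lay17, ¬ TriPart cap (s : Multiset ℕ) :=
  flatten_no (List.forall_mem_cons.mpr ⟨stepOKp_sound st17_0 no18,
    fun _ h => absurd h List.not_mem_nil⟩)

theorem no16 : ∀ s ∈ lay16, ¬ TriPart cap (s : Multiset ℕ) :=
  flatten_no (List.forall_mem_cons.mpr ⟨stepOKp_sound st16_0 no17,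
    fun _ h => absurd h List.not_mem_nil⟩)

theorem no15 : ∀ s ∈ lay15, ¬ TriPart cap (s : Multiset ℕ) :=
  flatten_no (List.forall_mem_cons.mpr ⟨stepOKp_sound st15_0 no16,
    fun _ h => absurd h List.not_mem_nil⟩)

theorem no14 : ∀ s ∈ lay14, ¬ TriPart cap (s : Multiset ℕ) :=
  flatten_no (List.forall_mem_cons.mpr ⟨stepOKp_sound st14_0 no15,
    fun _ h => absurd h List.not_mem_nil⟩)

theorem no13 : ∀ s ∈ lay13, ¬ TriPart cap (s : Multiset ℕ) :=
  flatten_no (List.forall_mem_cons.mpr ⟨stepOKp_sound st13_0 no14,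
    fun _ h => absurd h List.not_mem_nil⟩)

theorem no12 : ∀ s ∈ lay12, ¬ TriPart cap (s : Multiset ℕ) :=
  flatten_no (List.forall_mem_cons.mpr ⟨stepOKp_sound st12_0 no13,
    fun _ h => absurd h List.not_mem_nil⟩)

theorem no11 : ∀ s ∈ lay11, ¬ TriPart cap (s : Multiset ℕ) :=
  flatten_no (List.forall_mem_cons.mpr ⟨stepOKp_sound st11_0 no12,
    List.forall_mem_cons.mpr ⟨stepOKp_sound st11_1 no12,
    fun _ h => absurd h List.not_mem_nil⟩⟩)

theorem no10 : ∀ s ∈ lay10, ¬ TriPart cap (s : Multiset ℕ) :=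
  flatten_no (List.forall_mem_cons.mpr ⟨stepOKp_sound st10_0 no11,
    List.forall_mem_cons.mpr ⟨stepOKp_sound st10_1 no11,
    List.forall_mem_cons.mpr ⟨stepOKp_sound st10_2 no11,
    fun _ h => absurd h List.not_mem_nil⟩⟩⟩)

theorem no9 : ∀ s ∈ lay9, ¬ TriPart cap (s : Multiset ℕ) :=
  flatten_no (List.forall_mem_cons.mpr ⟨stepOKp_sound st9_0 no10,
    List.forall_mem_cons.mpr ⟨stepOKp_sound st9_1 no10,
    List.forall_mem_cons.mpr ⟨stepOKp_sound st9_2 no10,
    List.forall_mem_cons.mpr ⟨stepOKp_sound st9_3 no10,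
    List.forall_mem_cons.mpr ⟨stepOKp_sound st9_4 no10,
    fun _ h => absurd h List.not_mem_nil⟩⟩⟩⟩⟩)

theorem no8 : ∀ s ∈ lay8, ¬ TriPart cap (s : Multiset ℕ) :=
  flatten_no (List.forall_mem_cons.mpr ⟨stepOKp_sound st8_0 no9,
    List.forall_mem_cons.mpr ⟨stepOKp_sound st8_1 no9,
    List.forall_mem_cons.mpr ⟨stepOKp_sound st8_2 no9,
    List.forall_mem_cons.mpr ⟨stepOKp_sound st8_3 no9,
    List.forall_mem_cons.mpr ⟨stepOKp_sound st8_4 no9,
    List.forall_mem_cons.mpr ⟨stepOKp_sound st8_5 no9,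
    fun _ h => absurd h List.not_mem_nil⟩⟩⟩⟩⟩⟩)

theorem no7 : ∀ s ∈ lay7, ¬ TriPart cap (s : Multiset ℕ) :=
  flatten_no (List.forall_mem_cons.mpr ⟨stepOKp_sound st7_0 no8,
    List.forall_mem_cons.mpr ⟨stepOKp_sound st7_1 no8,
    List.forall_mem_cons.mpr ⟨stepOKp_sound st7_2 no8,
    List.forall_mem_cons.mpr ⟨stepOKp_sound st7_3 no8,
    fun _ h => absurd h List.not_mem_nil⟩⟩⟩⟩)

theorem no6 : ∀ s ∈ lay6, ¬ TriPart cap (s : Multiset ℕ) :=
  flatten_no (List.forall_mem_cons.mpr ⟨stepOKp_sound st6_0 no7,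
    List.forall_mem_cons.mpr ⟨stepOKp_sound st6_1 no7,
    fun _ h => absurd h List.not_mem_nil⟩⟩)

theorem no5 : ∀ s ∈ lay5, ¬ TriPart cap (s : Multiset ℕ) :=
  flatten_no (List.forall_mem_cons.mpr ⟨stepOKp_sound st5_0 no6,
    fun _ h => absurd h List.not_mem_nil⟩)

theorem no4 : ∀ s ∈ lay4, ¬ TriPart cap (s : Multiset ℕ) :=
  flatten_no (List.forall_mem_cons.mpr ⟨stepOKp_sound st4_0 no5,
    List.forall_mem_cons.mpr ⟨stepOKp_sound st4_1 no5,
    fun _ h => absurd h List.not_mem_nil⟩⟩)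

theorem no3 : ∀ s ∈ lay3, ¬ TriPart cap (s : Multiset ℕ) :=
  flatten_no (List.forall_mem_cons.mpr ⟨stepOKp_sound st3_0 no4,
    fun _ h => absurd h List.not_mem_nil⟩)

theorem no2 : ∀ s ∈ lay2, ¬ TriPart cap (s : Multiset ℕ) :=
  flatten_no (List.forall_mem_cons.mpr ⟨stepOKp_sound st2_0 no3,
    fun _ h => absurd h List.not_mem_nil⟩)

theorem no1 : ∀ s ∈ lay1, ¬ TriPart cap (s : Multiset ℕ) :=
  flatten_no (List.forall_mem_cons.mpr ⟨stepOKp_sound st1_0 no2,
    fun _ h => absurd h List.not_mem_nil⟩)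

theorem no0 : ∀ s ∈ lay0, ¬ TriPart cap (s : Multiset ℕ) :=
  flatten_no (List.forall_mem_cons.mpr ⟨stepOKp_sound st0_0 no1,
    fun _ h => absurd h List.not_mem_nil⟩)

end Vale.Agent.Lib.P302.helper26.C62
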